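import Vale.Agent.P099.Defs

/-! Absolute continuity of the image of `dp ds ds' dθ dθ'` under
`(p, s, s', θ, θ') ↦ ((p + s θ, θ), (p + s' θ', θ'))` for P099 (wave fronts). -/

open MeasureTheory Set Filter Topology Complex

namespace Vale.Agent.P099.WF

/-- the direction measure is a probability measure -/
theorem isProb_nu : IsProbabilityMeasure nu := by
  have h0 : (volume : Measure ℝ) (Ioc (-Real.pi) Real.pi) ≠ 0 := by
    rw [Real.volume_Ioc]
    have := Real.pi_pos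
    simp only [ne_eq, ENNReal.ofReal_eq_zero, not_le]
    linarith
  have h1 : (volume : Measure ℝ) (Ioc (-Real.pi) Real.pi) ≠ ⊤ := by
    rw [Real.volume_Ioc]
    exact ENNReal.ofReal_ne_top
  have : IsProbabilityMeasure (ProbabilityTheory.cond (volume : Measure ℝ)
      (Ioc (-Real.pi) Real.pi)) :=
    ProbabilityTheory.cond_isProbabilityMeasure_of_finite h0 h1
  unfold nu
  refine Measure.isProbabilityMeasure_map ?_
  exact Measurable.aemeasurable (by fun_prop)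

/-- almost every direction has norm one -/
theorem ae_norm_nu : ∀ᵐ u ∂nu, ‖u‖ = 1 := by
  unfold nu
  rw [ae_map_iff (Measurable.aemeasurable (by fun_prop))
    (measurableSet_eq_fun (by fun_prop) (by fun_prop))]
  exact Eventually.of_forall fun θ => Complex.norm_exp_ofReal_mul_I θ

/-- the direction measure has no atoms -/
theorem nu_singleton (u : ℂ) : nu {u} = 0 := by
  unfold nu
  rw [Measure.map_apply (by fun_prop) (measurableSet_singleton u)]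
  refine ProbabilityTheory.cond_absolutelyContinuous ?_
  refine Set.Countable.measure_zero ?_ volume
  by_cases hne : ((fun θ : ℝ => Complex.exp (θ * Complex.I)) ⁻¹' {u}).Nonempty
  · obtain ⟨θ₀, h0⟩ := hne
    refine Set.Countable.mono ?_ (Set.countable_range fun n : ℤ => θ₀ + n * (2 * Real.pi))
    intro θ hθ
    simp only [mem_preimage, mem_singleton_iff] at h0 hθ
    rw [← h0, Complex.exp_eq_exp_iff_exists_int] at hθ
    obtain ⟨n, hn⟩ := hθ
    refine ⟨n, ?_⟩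
    have h2 : ((θ : ℂ) - θ₀ - n * (2 * Real.pi)) * Complex.I = 0 := by linear_combination hn
    have h3 := (mul_eq_zero.1 h2).resolve_right Complex.I_ne_zero
    have h4 : θ - θ₀ - n * (2 * Real.pi) = 0 := by exact_mod_cast h3
    simp only
    linarith
  · rw [Set.not_nonempty_iff_eq_empty] at hne
    rw [hne]
    exact Set.countable_empty

/-- parallel directions are exceptional -/
theorem ae_linearIndependent {u : ℂ} (hu : ‖u‖ = 1) :
    ∀ᵐ v ∂nu, LinearIndependent ℝ ![u, v] := by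
  have h1 : ∀ᵐ v ∂nu, v ≠ u := by
    rw [ae_iff]; simpa using nu_singleton u
  have h2 : ∀ᵐ v ∂nu, v ≠ -u := by
    rw [ae_iff]; simpa using nu_singleton (-u)
  filter_upwards [ae_norm_nu, h1, h2] with v hv hv1 hv2
  have hu0 : u ≠ 0 := by
    intro h; rw [h, norm_zero] at hu; exact zero_ne_one hu
  rw [LinearIndependent.pair_iff' hu0]
  intro a ha
  have h3 : |a| = 1 := by
    have := congrArg norm ha
    rw [norm_smul, hu, hv, mul_one, Real.norm_eq_abs] at this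
    exact this
  rcases (abs_eq zero_le_one).1 h3 with h | h
  · rw [h, one_smul] at ha; exact hv1 ha.symm
  · rw [h, neg_one_smul] at ha; exact hv2 ha.symm

/-- the linear map `(s, s') ↦ s' v - s u` is an isomorphism -/
noncomputable def lmap (u v : ℂ) : (ℝ × ℝ) →ₗ[ℝ] ℂ :=
  ((LinearMap.snd ℝ ℝ ℝ).smulRight v) - ((LinearMap.fst ℝ ℝ ℝ).smulRight u)

theorem lmap_apply (u v : ℂ) (s : ℝ × ℝ) : lmap u v s = s.2 • v - s.1 • u := rfl

theorem lmap_injective {u v : ℂ} (h : LinearIndependent ℝ ![u, v]) :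
    Function.Injective (lmap u v) := by
  rw [← LinearMap.ker_eq_bot, LinearMap.ker_eq_bot']
  rintro ⟨a, b⟩ hab
  rw [lmap_apply] at hab
  have := LinearIndependent.pair_iff.1 h (-a) b (by simpa [sub_eq_neg_add] using hab)
  ext
  · simpa using this.1
  · exact this.2

/-- almost every `(s, s')` avoids a null set through `(s, s') ↦ x + s' v - s u` -/
theorem ae_comp_lmap {u v : ℂ} (h : LinearIndependent ℝ ![u, v]) {p : ℂ → Prop}
    (hp : ∀ᵐ y : ℂ, p y) (x : ℂ) : ∀ᵐ s : ℝ × ℝ, p (x + (s.2 • v - s.1 • u)) := by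
  have hrank : Module.finrank ℝ (ℝ × ℝ) = Module.finrank ℝ ℂ := by
    simp
  let e : (ℝ × ℝ) ≃ₗ[ℝ] ℂ := LinearEquiv.ofInjectiveOfFinrankEq (lmap u v) (lmap_injective h) hrank
  let e' : (ℝ × ℝ) ≃L[ℝ] ℂ := e.toContinuousLinearEquiv
  have he : ∀ s, e' s = s.2 • v - s.1 • u := fun s => rfl
  have hV : Measure.IsAddHaarMeasure (volume : Measure (ℝ × ℝ)) := by
    rw [Measure.volume_eq_prod]
    infer_instance
  have hH : Measure.IsAddHaarMeasure ((volume : Measure (ℝ × ℝ)).map e') :=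
    ContinuousLinearEquiv.isAddHaarMeasure_map e' volume
  have hac : (volume : Measure (ℝ × ℝ)).map e' ≪ (volume : Measure ℂ) :=
    Measure.absolutelyContinuous_isAddHaarMeasure _ _
  have hq : Measure.QuasiMeasurePreserving (fun s : ℝ × ℝ => e' s) volume volume :=
    ⟨e'.continuous.measurable, hac⟩
  have h1 : ∀ᵐ y : ℂ, p (x + y) :=
    (measurePreserving_add_left volume x).quasiMeasurePreserving.ae hp
  have h2 := hq.ae h1
  simpa only [he] using h2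

/-- For non-parallel `u`, `v`: almost every `(s, s')` and almost every `p`, the pair
`(p + s u, p + s' v)` avoids a null set of pairs. -/
theorem ae_pair {u v : ℂ} (h : LinearIndependent ℝ ![u, v]) {P : ℂ × ℂ → Prop}
    (hPm : MeasurableSet {z | P z}) (hP : ∀ᵐ x : ℂ, ∀ᵐ y : ℂ, P (x, y)) :
    ∀ᵐ s : ℝ × ℝ, ∀ᵐ p : ℂ, P (p + s.1 • u, p + s.2 • v) := by
  have h1 : ∀ᵐ x : ℂ, ∀ᵐ s : ℝ × ℝ, P (x, x + (s.2 • v - s.1 • u)) := by
    filter_upwards [hP] with x hx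
    exact ae_comp_lmap h hx x
  have hm : Measurable fun w : ℂ × (ℝ × ℝ) => (w.1, w.1 + (w.2.2 • v - w.2.1 • u)) := by
    fun_prop
  have h2 : ∀ᵐ s : ℝ × ℝ, ∀ᵐ x : ℂ, P (x, x + (s.2 • v - s.1 • u)) :=
    (Measure.ae_ae_comm (p := fun (x : ℂ) (s : ℝ × ℝ) => P (x, x + (s.2 • v - s.1 • u)))
      (hm hPm)).1 h1
  filter_upwards [h2] with s hs
  have h3 := (measurePreserving_add_right (volume : Measure ℂ) (s.1 • u)).quasiMeasurePreserving.ae
    hs
  filter_upwards [h3] with p hp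
  have e : p + s.1 • u + (s.2 • v - s.1 • u) = p + s.2 • v := by abel
  rw [e] at hp
  exact hp

/-- rearranging a fourfold almost everywhere statement -/
theorem ae_rearrange {P : (ℂ × ℂ) × (ℂ × ℂ) → Prop} (hPm : MeasurableSet {z | P z})
    (hP : ∀ᵐ z ∂(((volume : Measure ℂ).prod nu).prod ((volume : Measure ℂ).prod nu)), P z) :
    ∀ᵐ u ∂nu, ∀ᵐ v ∂nu, ∀ᵐ x : ℂ, ∀ᵐ y : ℂ, P ((x, u), (y, v)) := by
  have := isProb_nu
  -- a.e. (x, u), a.e. (y, v)
  have h1 := Measure.ae_ae_of_ae_prod hP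
  have h2 := Measure.ae_ae_of_ae_prod h1
  -- a.e. x, a.e. u, a.e. (y, v)
  have hm2 : MeasurableSet {w : ℂ × ℂ | ∀ᵐ z ∂((volume : Measure ℂ).prod nu), P (w, z)} := by
    have : {w : ℂ × ℂ | ∀ᵐ z ∂((volume : Measure ℂ).prod nu), P (w, z)} =
        {w | ((volume : Measure ℂ).prod nu) (Prod.mk w ⁻¹' {z | P z}ᶜ) = 0} := rfl
    rw [this]
    exact measurable_measure_prodMk_left hPm.compl (measurableSet_singleton 0)
  have h3 : ∀ᵐ u ∂nu, ∀ᵐ x : ℂ, ∀ᵐ z ∂((volume : Measure ℂ).prod nu), P ((x, u), z) :=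
    (Measure.ae_ae_comm (p := fun (x u : ℂ) => ∀ᵐ z ∂((volume : Measure ℂ).prod nu),
      P ((x, u), z)) hm2).1 h2
  filter_upwards [h3] with u hu
  -- a.e. x, a.e. (y, v) -> a.e. v, a.e. x, a.e. y
  have hmu : MeasurableSet {w : ℂ × (ℂ × ℂ) | P ((w.1, u), w.2)} := by
    have hm : Measurable fun w : ℂ × (ℂ × ℂ) => ((w.1, u), w.2) := by fun_prop
    exact hm hPm
  have h4 : ∀ᵐ x : ℂ, ∀ᵐ v ∂nu, ∀ᵐ y : ℂ, P ((x, u), (y, v)) := by
    filter_upwards [hu] with x hx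
    have hx2 := Measure.ae_ae_of_ae_prod hx
    have hmx : MeasurableSet {w : ℂ × ℂ | P ((x, u), (w.1, w.2))} := by
      have hm : Measurable fun w : ℂ × ℂ => ((x, u), (w.1, w.2)) := by fun_prop
      exact hm hPm
    exact (Measure.ae_ae_comm (p := fun (y v : ℂ) => P ((x, u), (y, v))) hmx).1 hx2
  have hm5 : MeasurableSet {w : ℂ × ℂ | ∀ᵐ y : ℂ, P ((w.1, u), (y, w.2))} := by
    have hm : Measurable fun w : (ℂ × ℂ) × ℂ => ((w.1.1, u), (w.2, w.1.2)) := by fun_prop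
    have : {w : ℂ × ℂ | ∀ᵐ y : ℂ, P ((w.1, u), (y, w.2))} =
        {w | (volume : Measure ℂ) (Prod.mk w ⁻¹' ((fun w : (ℂ × ℂ) × ℂ =>
          ((w.1.1, u), (w.2, w.1.2))) ⁻¹' {z | P z}ᶜ)) = 0} := rfl
    rw [this]
    exact measurable_measure_prodMk_left (hm hPm.compl) (measurableSet_singleton 0)
  exact (Measure.ae_ae_comm (p := fun (x v : ℂ) => ∀ᵐ y : ℂ, P ((x, u), (y, v))) hm5).1 h4

/-- the map `(p, (s, s'), (u, v)) ↦ ((p + s u, u), (p + s' v, v))` -/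
noncomputable def fl (w : ℂ × (ℝ × ℝ) × (ℂ × ℂ)) : (ℂ × ℂ) × (ℂ × ℂ) :=
  ((w.1 + w.2.1.1 • w.2.2.1, w.2.2.1), (w.1 + w.2.1.2 • w.2.2.2, w.2.2.2))

theorem measurable_fl : Measurable fl := by
  unfold fl
  fun_prop

/-- iterated form: for a null set `N` of pairs of phase points, for almost all directions
`u`, `v`, almost all `(s, s')` and almost all `p`, `((p + s u, u), (p + s' v, v)) ∉ N` -/
theorem ae_fl {P : (ℂ × ℂ) × (ℂ × ℂ) → Prop} (hPm : MeasurableSet {z | P z})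
    (hP : ∀ᵐ z ∂(((volume : Measure ℂ).prod nu).prod ((volume : Measure ℂ).prod nu)), P z) :
    ∀ᵐ u ∂nu, ∀ᵐ v ∂nu, ∀ᵐ s : ℝ × ℝ, ∀ᵐ p : ℂ, P (fl (p, s, (u, v))) := by
  filter_upwards [ae_rearrange hPm hP, ae_norm_nu] with u hu hu1
  filter_upwards [hu, ae_linearIndependent hu1] with v hv hv1
  have hm : Measurable fun w : ℂ × ℂ => ((w.1, u), (w.2, v)) := by fun_prop
  exact ae_pair (P := fun w : ℂ × ℂ => P ((w.1, u), (w.2, v))) hv1 (hm hPm) hv

/-- **Absolute continuity.** The image of `dp (ds ds') (du dv)` under `fl` is absolutely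
continuous. -/
theorem fl_quasi : Measure.QuasiMeasurePreserving fl
    ((volume : Measure ℂ).prod ((volume : Measure (ℝ × ℝ)).prod (nu.prod nu)))
    (((volume : Measure ℂ).prod nu).prod ((volume : Measure ℂ).prod nu)) := by
  have := isProb_nu
  refine ⟨measurable_fl, Measure.AbsolutelyContinuous.mk fun N hN h0 => ?_⟩
  rw [Measure.map_apply measurable_fl hN]
  have hP : ∀ᵐ z ∂(((volume : Measure ℂ).prod nu).prod ((volume : Measure ℂ).prod nu)),
      z ∈ Nᶜ := by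
    rw [ae_iff]; simpa using h0
  have h1 := ae_fl (P := fun z => z ∈ Nᶜ) hN.compl hP
  -- a.e. u, a.e. v, a.e. s, a.e. p  ->  a.e. p, a.e. (s, (u, v))
  have hmB : MeasurableSet (fl ⁻¹' Nᶜ) := measurable_fl hN.compl
  have h2 : ∀ᵐ uv ∂(nu.prod nu), ∀ᵐ s : ℝ × ℝ, ∀ᵐ p : ℂ, fl (p, s, uv) ∈ Nᶜ := by
    have hm : MeasurableSet {uv : ℂ × ℂ | ∀ᵐ s : ℝ × ℝ, ∀ᵐ p : ℂ, fl (p, s, uv) ∈ Nᶜ} := by
      have hA : MeasurableSet {w : (ℂ × ℂ) × (ℝ × ℝ) | ∀ᵐ p : ℂ, fl (p, w.2, w.1) ∈ Nᶜ} := by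
        have hm : Measurable fun w : ((ℂ × ℂ) × (ℝ × ℝ)) × ℂ => fl (w.2, w.1.2, w.1.1) :=
          measurable_fl.comp (by fun_prop)
        have : {w : (ℂ × ℂ) × (ℝ × ℝ) | ∀ᵐ p : ℂ, fl (p, w.2, w.1) ∈ Nᶜ} =
            {w | (volume : Measure ℂ) (Prod.mk w ⁻¹' ((fun w : ((ℂ × ℂ) × (ℝ × ℝ)) × ℂ =>
              fl (w.2, w.1.2, w.1.1)) ⁻¹' Nᶜᶜ)) = 0} := rfl
        rw [this]
        exact measurable_measure_prodMk_left (hm hN.compl.compl) (measurableSet_singleton 0)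
      have : {uv : ℂ × ℂ | ∀ᵐ s : ℝ × ℝ, ∀ᵐ p : ℂ, fl (p, s, uv) ∈ Nᶜ} =
          {uv | (volume : Measure (ℝ × ℝ)) (Prod.mk uv ⁻¹'
            {w : (ℂ × ℂ) × (ℝ × ℝ) | ∀ᵐ p : ℂ, fl (p, w.2, w.1) ∈ Nᶜ}ᶜ) = 0} := rfl
      rw [this]
      exact measurable_measure_prodMk_left hA.compl (measurableSet_singleton 0)
    exact (Measure.ae_prod_iff_ae_ae hm).2 h1
  have h3 : ∀ᵐ w ∂((nu.prod nu).prod (volume : Measure (ℝ × ℝ))), ∀ᵐ p : ℂ,
      fl (p, w.2, w.1) ∈ Nᶜ := by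
    have hA : MeasurableSet {w : (ℂ × ℂ) × (ℝ × ℝ) | ∀ᵐ p : ℂ, fl (p, w.2, w.1) ∈ Nᶜ} := by
      have hm : Measurable fun w : ((ℂ × ℂ) × (ℝ × ℝ)) × ℂ => fl (w.2, w.1.2, w.1.1) :=
        measurable_fl.comp (by fun_prop)
      have : {w : (ℂ × ℂ) × (ℝ × ℝ) | ∀ᵐ p : ℂ, fl (p, w.2, w.1) ∈ Nᶜ} =
          {w | (volume : Measure ℂ) (Prod.mk w ⁻¹' ((fun w : ((ℂ × ℂ) × (ℝ × ℝ)) × ℂ =>
            fl (w.2, w.1.2, w.1.1)) ⁻¹' Nᶜᶜ)) = 0} := rfl
      rw [this]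
      exact measurable_measure_prodMk_left (hm hN.compl.compl) (measurableSet_singleton 0)
    exact (Measure.ae_prod_iff_ae_ae hA).2 h2
  have h4 : ∀ᵐ w ∂((volume : Measure (ℝ × ℝ)).prod (nu.prod nu)), ∀ᵐ p : ℂ,
      fl (p, w.1, w.2) ∈ Nᶜ :=
    (Measure.measurePreserving_swap (μ := (volume : Measure (ℝ × ℝ)))
      (ν := nu.prod nu)).quasiMeasurePreserving.ae h3
  have hmC : MeasurableSet {w : ((ℝ × ℝ) × (ℂ × ℂ)) × ℂ | fl (w.2, w.1.1, w.1.2) ∈ Nᶜ} := by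
    have hm : Measurable fun w : ((ℝ × ℝ) × (ℂ × ℂ)) × ℂ => fl (w.2, w.1.1, w.1.2) :=
      measurable_fl.comp (by fun_prop)
    exact hm hN.compl
  have h5 : ∀ᵐ p : ℂ, ∀ᵐ w ∂((volume : Measure (ℝ × ℝ)).prod (nu.prod nu)),
      fl (p, w.1, w.2) ∈ Nᶜ :=
    (Measure.ae_ae_comm (p := fun (w : (ℝ × ℝ) × (ℂ × ℂ)) (p : ℂ) =>
      fl (p, w.1, w.2) ∈ Nᶜ) hmC).1 h4
  have h6 := (Measure.ae_prod_iff_ae_ae (μ := (volume : Measure ℂ))
    (ν := (volume : Measure (ℝ × ℝ)).prod (nu.prod nu)) (p := fun w => fl w ∈ Nᶜ) hmB).2 h5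
  rw [ae_iff] at h6
  have e : {a | ¬ fl a ∈ Nᶜ} = fl ⁻¹' N := by
    ext a
    simp
  rw [e] at h6
  exact h6

end Vale.Agent.P099.WF
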