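import Vale.Agent.P099.R2.H533.Abs
import Vale.Agent.P099.R2.H366.Defs

/-! P099, wave fronts: row B (the pair measure is absolutely continuous). -/

namespace Vale.Agent.P099.H366

open MeasureTheory Set Filter Topology Vale.Agent.P099 Vale.Agent.P099T

/-- rearrangement of a fourfold product -/
theorem mp_four {α β γ δ : Type} [MeasurableSpace α] [MeasurableSpace β] [MeasurableSpace γ]
    [MeasurableSpace δ] (μa : Measure α) (μb : Measure β) (μc : Measure γ) (μd : Measure δ)
    [SFinite μa] [SFinite μb] [SFinite μc] [SFinite μd] :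
    MeasurePreserving (fun z : (α × β) × (γ × δ) => ((z.1.1, z.2.1), (z.1.2, z.2.2)))
      ((μa.prod μb).prod (μc.prod μd)) ((μa.prod μc).prod (μb.prod μd)) := by
  have h1 : MeasurePreserving (MeasurableEquiv.prodAssoc : (α × β) × (γ × δ) ≃ᵐ α × β × γ × δ)
      ((μa.prod μb).prod (μc.prod μd)) (μa.prod (μb.prod (μc.prod μd))) :=
    ⟨MeasurableEquiv.prodAssoc.measurable, Measure.prodAssoc_prod⟩
  have h2 : MeasurePreserving (MeasurableEquiv.prodAssoc : (β × γ) × δ ≃ᵐ β × γ × δ)
      ((μb.prod μc).prod μd) (μb.prod (μc.prod μd)) :=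
    ⟨MeasurableEquiv.prodAssoc.measurable, Measure.prodAssoc_prod⟩
  have h3 : MeasurePreserving (MeasurableEquiv.prodAssoc : (γ × β) × δ ≃ᵐ γ × β × δ)
      ((μc.prod μb).prod μd) (μc.prod (μb.prod μd)) :=
    ⟨MeasurableEquiv.prodAssoc.measurable, Measure.prodAssoc_prod⟩
  have h4 : MeasurePreserving (MeasurableEquiv.prodAssoc : (α × γ) × (β × δ) ≃ᵐ α × γ × β × δ)
      ((μa.prod μc).prod (μb.prod μd)) (μa.prod (μc.prod (μb.prod μd))) :=
    ⟨MeasurableEquiv.prodAssoc.measurable, Measure.prodAssoc_prod⟩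
  have s1 : MeasurePreserving (Prod.map (Prod.swap : β × γ → γ × β) (id : δ → δ))
      ((μb.prod μc).prod μd) ((μc.prod μb).prod μd) :=
    (Measure.measurePreserving_swap (μ := μb) (ν := μc)).prod (MeasurePreserving.id μd)
  have k1 := (h3.comp s1).comp (MeasurePreserving.symm _ h2)
  have k2 : MeasurePreserving _ (μa.prod (μb.prod (μc.prod μd)))
      (μa.prod (μc.prod (μb.prod μd))) := (MeasurePreserving.id μa).prod k1
  have k3 := ((MeasurePreserving.symm _ h4).comp k2).comp h1
  exact k3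

theorem rho_ac (δ : ℝ) (G : Set ℂ) :
    rho δ G ≪ (volume : Measure ℝ).prod nu := by
  have := WF.isProb_nu
  exact Measure.AbsolutelyContinuous.prod (Measure.absolutelyContinuous_of_le
    Measure.restrict_le_self) (Measure.absolutelyContinuous_of_le Measure.restrict_le_self)

theorem sfinite_rho (δ : ℝ) (G : Set ℂ) : SFinite (rho δ G) := by
  have := WF.isProb_nu
  unfold rho
  infer_instance

theorem measurable_pair : Measurable fun x : ℂ × ((ℝ × ℂ) × (ℝ × ℂ)) =>
    (mv x.1 x.2.1, mv x.1 x.2.2) := by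
  unfold mv
  fun_prop

theorem pair_quasi : Measure.QuasiMeasurePreserving
    (fun x : ℂ × ((ℝ × ℂ) × (ℝ × ℂ)) => (mv x.1 x.2.1, mv x.1 x.2.2))
    ((volume : Measure ℂ).prod (((volume : Measure ℝ).prod nu).prod
      ((volume : Measure ℝ).prod nu)))
    (((volume : Measure ℂ).prod nu).prod ((volume : Measure ℂ).prod nu)) := by
  have := WF.isProb_nu
  have h1 := mp_four (volume : Measure ℝ) nu (volume : Measure ℝ) nu
  have h2 := (MeasurePreserving.id (volume : Measure ℂ)).prod h1
  exact WF.fl_quasi.comp h2.quasiMeasurePreserving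

theorem M2_ac_volume {N : ℕ} (T : PolygonalTable N) (δ : ℝ) (G : Set ℂ) :
    M2 T δ G ≪ ((volume : Measure ℂ).prod nu).prod ((volume : Measure ℂ).prod nu) := by
  have := WF.isProb_nu
  have := sfinite_rho δ G
  have h1 : ((volume : Measure ℂ).restrict (inner T δ)).prod ((rho δ G).prod (rho δ G)) ≪
      ((volume : Measure ℂ).prod (((volume : Measure ℝ).prod nu).prod
        ((volume : Measure ℝ).prod nu))) :=
    Measure.AbsolutelyContinuous.prod (Measure.absolutelyContinuous_of_le
      Measure.restrict_le_self) (Measure.AbsolutelyContinuous.prod (rho_ac δ G) (rho_ac δ G))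
  exact (h1.map measurable_pair).trans pair_quasi.absolutelyContinuous

/-- a short free flight from an inner point stays in the table -/
theorem mv_mem {N : ℕ} (T : PolygonalTable N) {δ : ℝ} {p : ℂ} (hp : p ∈ inner T δ) {z : ℝ × ℂ}
    (h0 : 0 < z.1) (h1 : z.1 ≤ δ) (h2 : ‖z.2‖ = 1) : (mv p z).1 ∈ T.Q := by
  by_contra hcon
  have h3 : Metric.infDist p T.Qᶜ ≤ dist p (p + z.1 • z.2) :=
    Metric.infDist_le_dist_of_mem hcon
  have h4 : dist p (p + z.1 • z.2) = z.1 := by
    rw [dist_eq_norm, sub_add_cancel_left, norm_neg, norm_smul, h2, mul_one, Real.norm_eq_abs,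
      abs_of_pos h0]
  have h5 : δ < Metric.infDist p T.Qᶜ := hp
  linarith

theorem ae_rho (δ : ℝ) (G : Set ℂ) : ∀ᵐ z ∂(rho δ G), 0 < z.1 ∧ z.1 ≤ δ ∧ ‖z.2‖ = 1 := by
  have := WF.isProb_nu
  have h1 : ∀ᵐ s ∂((volume : Measure ℝ).restrict (Ioc 0 δ)), 0 < s ∧ s ≤ δ := by
    filter_upwards [ae_restrict_mem measurableSet_Ioc] with s hs
    exact hs
  have h2 : ∀ᵐ u ∂(nu.restrict G), ‖u‖ = 1 := ae_restrict_of_ae WF.ae_norm_nu
  have hm : MeasurableSet {z : ℝ × ℂ | 0 < z.1 ∧ z.1 ≤ δ ∧ ‖z.2‖ = 1} := by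
    refine (measurableSet_lt measurable_const measurable_fst).inter
      ((measurableSet_le measurable_fst measurable_const).inter ?_)
    exact measurableSet_eq_fun (by fun_prop) measurable_const
  unfold rho
  refine (Measure.ae_prod_iff_ae_ae hm).2 ?_
  filter_upwards [h1] with s hs
  filter_upwards [h2] with u hu
  exact ⟨hs.1, hs.2, hu⟩

theorem measurableSet_inner {N : ℕ} (T : PolygonalTable N) (δ : ℝ) :
    MeasurableSet (inner T δ) :=
  measurableSet_lt measurable_const (Metric.continuous_infDist_pt _).measurable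

theorem ae_M2_mem {N : ℕ} (T : PolygonalTable N) (δ : ℝ) (G : Set ℂ) :
    ∀ᵐ w ∂(M2 T δ G), w.1.1 ∈ T.Q ∧ w.2.1 ∈ T.Q := by
  have := WF.isProb_nu
  have := sfinite_rho δ G
  have hQm : MeasurableSet {w : (ℂ × ℂ) × (ℂ × ℂ) | w.1.1 ∈ T.Q ∧ w.2.1 ∈ T.Q} :=
    ((measurable_fst.comp measurable_fst) T.isOpen.measurableSet).inter
      ((measurable_fst.comp measurable_snd) T.isOpen.measurableSet)
  unfold M2
  rw [ae_map_iff measurable_pair.aemeasurable hQm]
  refine (Measure.ae_prod_iff_ae_ae (measurable_pair hQm)).2 ?_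
  filter_upwards [ae_restrict_mem (measurableSet_inner T δ)] with p hp
  have hm : Measurable fun y : (ℝ × ℂ) × (ℝ × ℂ) => (p, y) := by fun_prop
  refine (Measure.ae_prod_iff_ae_ae (hm (measurable_pair hQm))).2 ?_
  filter_upwards [ae_rho δ G] with z hz
  filter_upwards [ae_rho δ G] with z' hz'
  exact ⟨mv_mem T hp hz.1 hz.2.1 hz.2.2, mv_mem T hp hz'.1 hz'.2.1 hz'.2.2⟩

/-- the restriction to the table is absolutely continuous with respect to `T.mu` -/
theorem restrict_ac_mu {N : ℕ} (T : PolygonalTable N) :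
    ((volume : Measure ℂ).restrict T.Q).prod nu ≪ T.mu := by
  have := WF.isProb_nu
  have hfin : (volume : Measure ℂ) T.Q < ⊤ := T.isBounded.measure_lt_top
  have h1 : (volume : Measure ℂ).restrict T.Q ≪ ProbabilityTheory.cond volume T.Q := by
    unfold ProbabilityTheory.cond
    refine Measure.absolutelyContinuous_smul ?_
    simp only [ne_eq, ENNReal.inv_eq_zero]
    exact hfin.ne
  unfold PolygonalTable.mu
  exact h1.prod Measure.AbsolutelyContinuous.rfl

/-- row B without hypotheses -/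
theorem rowB_all {N : ℕ} (T : PolygonalTable N) (δ : ℝ) (G : Set ℂ) :
    M2 T δ G ≪ T.mu.prod T.mu := by
  have := WF.isProb_nu
  have hQ2 : MeasurableSet {w : (ℂ × ℂ) × (ℂ × ℂ) | w.1.1 ∈ T.Q ∧ w.2.1 ∈ T.Q} :=
    ((measurable_fst.comp measurable_fst) T.isOpen.measurableSet).inter
      ((measurable_fst.comp measurable_snd) T.isOpen.measurableSet)
  set S : Set ((ℂ × ℂ) × (ℂ × ℂ)) := {w | w.1.1 ∈ T.Q ∧ w.2.1 ∈ T.Q} with hS
  -- the restricted volume is absolutely continuous
  have e1 : (((volume : Measure ℂ).prod nu).prod ((volume : Measure ℂ).prod nu)).restrict S =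
      (((volume : Measure ℂ).restrict T.Q).prod nu).prod
        (((volume : Measure ℂ).restrict T.Q).prod nu) := by
    have h1 : ((volume : Measure ℂ).restrict T.Q).prod nu =
        ((volume : Measure ℂ).prod nu).restrict (T.Q ×ˢ univ) := by
      rw [← Measure.prod_restrict, Measure.restrict_univ]
    rw [h1, Measure.prod_restrict]
    congr 1
    ext w
    simp [hS]
  have hac : (((volume : Measure ℂ).prod nu).prod ((volume : Measure ℂ).prod nu)).restrict S ≪
      T.mu.prod T.mu := by
    have hsf : SFinite T.mu := by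
      unfold PolygonalTable.mu ProbabilityTheory.cond
      infer_instance
    rw [e1]
    exact (restrict_ac_mu T).prod (restrict_ac_mu T)
  refine Measure.AbsolutelyContinuous.mk fun A hA h0 => ?_
  have h1 : (((volume : Measure ℂ).prod nu).prod ((volume : Measure ℂ).prod nu)) (A ∩ S) = 0 := by
    rw [← Measure.restrict_apply hA]
    exact hac h0
  have h2 := M2_ac_volume T δ G h1
  have h3 : M2 T δ G Sᶜ = 0 := by
    have := ae_M2_mem T δ G
    rw [ae_iff] at this
    exact this
  refine measure_mono_null (t := (A ∩ S) ∪ Sᶜ) ?_ (measure_union_null h2 h3)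
  intro w hw
  by_cases hwS : w ∈ S
  · exact Or.inl ⟨hw, hwS⟩
  · exact Or.inr hwS

/-- ROW B (for directions that are not parallel the two points are given by a linear
isomorphism). -/
theorem rowB {N : ℕ} (T : PolygonalTable N) {δ : ℝ} (hδ : 0 < δ) {G : Set ℂ}
    (hG : MeasurableSet G) : M2 T δ G ≪ T.mu.prod T.mu :=
  rowB_all T δ G

end Vale.Agent.P099.H366
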