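import Vale.Agent.P099.R2.H533.RowB
import Vale.Agent.P099.R2.H366.RowC2
import Vale.Agent.P099.R2.H158.RowE1
import Vale.Agent.P099.R2.H158.RowE2
import Vale.Agent.P099.R2.H158.RowE3
import Vale.Agent.P099.R2.H158.RowE4

/-! P099, wave fronts: row E5 (the almost everywhere version). -/

namespace Vale.Agent.P099.H366

open MeasureTheory Set Filter Topology Vale.Agent.P099 Vale.Agent.P099T

section
variable {N : ℕ} (T : PolygonalTable N)

theorem E5.iterate_ae {Θ : ℝ → ℂ × ℂ → ℂ × ℂ} (hΘ : PFlow T.mu Θ) (τ : ℝ) (k : ℕ) :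
    ∀ᵐ p ∂T.mu, (Θ τ)^[k] p = Θ (k * τ) p := by
  have hF : H184Abs.Flow T.mu Θ := ⟨hΘ.meas, hΘ.mp, hΘ.add, hΘ.zero⟩
  filter_upwards [H184Abs.iterate_ae hF τ k] with p hp
  exact hp.symm

theorem E5.ergodic (hT : T.IsIrrational) {Θ : ℝ → ℂ × ℂ → ℂ × ℂ} (hΘ : PFlow T.mu Θ)
    (hb : T.IsBilliardFlow Θ) {τ : ℝ} (hτ : τ ≠ 0) : Ergodic (Θ τ) T.mu :=
  H184Abs.ergodic_of_zero_one (hΘ.mp τ) fun A hA => (table_maps T hT hb hτ).1 A hA.1 hA.2

theorem E5.ergodic2 (hT : T.IsIrrational) {Θ : ℝ → ℂ × ℂ → ℂ × ℂ} (hΘ : PFlow T.mu Θ)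
    (hb : T.IsBilliardFlow Θ) {τ : ℝ} (hτ : τ ≠ 0) :
    Ergodic (fun z : (ℂ × ℂ) × (ℂ × ℂ) => (Θ τ z.1, Θ τ z.2)) (T.mu.prod T.mu) :=
  H184Abs.ergodic_of_zero_one ((hΘ.mp τ).prod (hΘ.mp τ)) fun A hA =>
    (table_maps T hT hb hτ).2.1 A hA.1 hA.2

theorem E5.iterate_pair (Θ : ℂ × ℂ → ℂ × ℂ) (k : ℕ) (z : (ℂ × ℂ) × (ℂ × ℂ)) :
    (fun z : (ℂ × ℂ) × (ℂ × ℂ) => (Θ z.1, Θ z.2))^[k] z = (Θ^[k] z.1, Θ^[k] z.2) := by
  induction k with
  | zero => rfl
  | succ k ih => rw [Function.iterate_succ_apply', ih, Function.iterate_succ_apply',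
      Function.iterate_succ_apply']

end


/-- row E1 with representatives of the iterates -/
theorem E5.birk {X Y Z : Type} [MeasurableSpace X] [MeasurableSpace Y] [MeasurableSpace Z]
    {P : Measure X} [SFinite P] {ρ : Measure Y} [IsFiniteMeasure ρ] {m : Measure Z}
    [IsProbabilityMeasure m] {f : Z → Z} (hf : Ergodic f m) {φ : X × Y → Z}
    (hφ : Measure.QuasiMeasurePreserving φ (P.prod ρ) m) {g : Z → ℝ} (hg : Measurable g) {C : ℝ}
    (hC : ∀ z, |g z| ≤ C) {F : ℕ → Z → Z} (hF : ∀ k, ∀ᵐ z ∂m, f^[k] z = F k z) :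
    ∀ᵐ x ∂P, Tendsto (fun n : ℕ => (n : ℝ)⁻¹ * ∑ k ∈ Finset.range n,
      ∫ y, g (F k (φ (x, y))) ∂ρ) atTop (𝓝 ((∫ z, g z ∂m) * ρ.real univ)) := by
  have h1 : ∀ᵐ x ∂P, ∀ k, ∀ᵐ y ∂ρ, f^[k] (φ (x, y)) = F k (φ (x, y)) := by
    refine ae_all_iff.2 fun k => ?_
    exact Measure.ae_ae_of_ae_prod (hφ.ae (hF k))
  filter_upwards [rowE1 hf hφ hg hC, h1] with x hx hk
  refine hx.congr fun n => ?_
  congr 1
  refine Finset.sum_congr rfl fun k _ => ?_
  refine integral_congr_ae ?_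
  filter_upwards [hk k] with y hy
  rw [hy]

section
variable {N : ℕ} (T : PolygonalTable N)

theorem E5.finite_rho (δ : ℝ) (G : Set ℂ) : IsFiniteMeasure (rho δ G) := by
  have := WF.isProb_nu
  have h1 : IsFiniteMeasure ((volume : Measure ℝ).restrict (Ioc 0 δ)) :=
    ⟨by rw [Measure.restrict_apply_univ, Real.volume_Ioc]; exact ENNReal.ofReal_lt_top⟩
  unfold rho
  infer_instance

theorem E5.rho_univ {δ : ℝ} (hδ : 0 < δ) (G : Set ℂ) :
    (rho δ G).real univ = δ * nu.real G := by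
  have := WF.isProb_nu
  unfold rho
  rw [← univ_prod_univ, measureReal_prod_prod, measureReal_restrict_apply_univ,
    measureReal_restrict_apply_univ]
  congr 1
  rw [Measure.real, Real.volume_Ioc, ENNReal.toReal_ofReal (by linarith)]
  ring

theorem E5.inner_subset {δ : ℝ} (hδ : 0 < δ) : inner T δ ⊆ T.Q := by
  intro p hp
  by_contra hcon
  have h5 : δ < Metric.infDist p T.Qᶜ := hp
  rw [Metric.infDist_zero_of_mem (show p ∈ T.Qᶜ from hcon)] at h5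
  linarith

theorem E5.q2 {δ : ℝ} (G : Set ℂ) : Measure.QuasiMeasurePreserving
    (fun x : ℂ × ((ℝ × ℂ) × (ℝ × ℂ)) => (mv x.1 x.2.1, mv x.1 x.2.2))
    (((volume : Measure ℂ).restrict (inner T δ)).prod ((rho δ G).prod (rho δ G)))
    (T.mu.prod T.mu) :=
  ⟨measurable_pair, rowB_all T δ G⟩

theorem E5.q1 {δ : ℝ} (G : Set ℂ) : Measure.QuasiMeasurePreserving
    (fun x : ℂ × (ℝ × ℂ) => mv x.1 x.2)
    (((volume : Measure ℂ).restrict (inner T δ)).prod (rho δ G)) T.mu := by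
  have := E5.finite_rho δ G
  have hm : Measurable fun x : ℂ × (ℝ × ℂ) => mv x.1 x.2 := by
    unfold mv
    fun_prop
  refine ⟨hm, Measure.AbsolutelyContinuous.mk fun A hA h0 => ?_⟩
  rw [Measure.map_apply hm hA, Measure.measure_prod_null (hm hA)]
  have h1 : ∀ᵐ w ∂(T.mu.prod T.mu), w.1 ∉ A :=
    Measure.quasiMeasurePreserving_fst.ae (measure_eq_zero_iff_ae_notMem.1 h0)
  have h2 := Measure.ae_ae_of_ae_prod ((E5.q2 T (δ := δ) G).ae h1)
  filter_upwards [h2] with p hp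
  by_cases hr : rho δ G univ = 0
  · exact measure_mono_null (subset_univ _) hr
  · have h3 := Measure.ae_ae_of_ae_prod hp
    have hne : (ae (rho δ G)).NeBot := ae_neBot.2 fun h => hr (by rw [h]; rfl)
    have h4 : ∀ᵐ z ∂(rho δ G), mv p z ∉ A := by
      filter_upwards [h3] with z hz
      exact hz.exists.elim fun _ h => h
    exact measure_eq_zero_iff_ae_notMem.2 h4

theorem E5.q3 {δ : ℝ} (hδ : 0 < δ) (G : Set ℂ) : Measure.QuasiMeasurePreserving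
    (fun x : ℂ × ℂ => x)
    (((volume : Measure ℂ).restrict (inner T δ)).prod (nu.restrict G)) T.mu := by
  have := WF.isProb_nu
  refine ⟨measurable_id, ?_⟩
  rw [show (fun x : ℂ × ℂ => x) = id from rfl, Measure.map_id]
  refine Measure.AbsolutelyContinuous.trans ?_ (restrict_ac_mu T)
  refine Measure.AbsolutelyContinuous.prod ?_
    (Measure.absolutelyContinuous_of_le Measure.restrict_le_self)
  exact Measure.absolutelyContinuous_of_le (Measure.restrict_mono (E5.inner_subset T hδ) le_rfl)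

theorem E5.fixed (hT : T.IsIrrational)
    {Θ : ℝ → ℂ × ℂ → ℂ × ℂ} (hΘ : PFlow T.mu Θ) (hb : T.IsBilliardFlow Θ) {τ : ℝ} (hτ : τ ≠ 0)
    {A : Set (ℂ × ℂ)} (hA : MeasurableSet A) {G : Set ℂ} (hG : MeasurableSet G)
    {δ ε : ℝ} (hδ : 0 < δ) (hε : 0 < ε)
    (h : ∀ s : ℝ, |s| ≤ δ → T.mu.real (symmDiff A (Θ s ⁻¹' A)) ≤ ε) :
    ∀ᵐ p ∂((volume : Measure ℂ).restrict (inner T δ)),
      ∀ᶠ n : ℕ in atTop, (n : ℝ)⁻¹ * ∑ k ∈ Finset.range n,
        |nu.real {θ | θ ∈ G ∧ Θ (k * τ) (p, θ) ∈ A} - T.mu.real A * nu.real G| ≤ 3 * ε := by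
  have := WF.isProb_nu
  have := E5.finite_rho δ G
  have hΘm : ∀ t, Measurable (Θ t) := fun t => (hΘ.mp t).measurable
  obtain ⟨he1, he2, he3⟩ := rowE2 T hΘ hA hδ h
  have hmvp : ∀ p : ℂ, Measurable fun z : ℝ × ℂ => mv p z := by
    intro p
    unfold mv
    fun_prop
  -- first moment
  have b1 := E5.birk (E5.ergodic T hT hΘ hb hτ) (E5.q1 T (δ := δ) G)
    (g := A.indicator fun _ => (1 : ℝ)) (measurable_const.indicator hA) (C := 1)
    (fun z => by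
      by_cases hz : z ∈ A
      · simp [hz]
      · simp [hz])
    (F := fun k => Θ (k * τ)) (fun k => E5.iterate_ae T hΘ τ k)
  -- second moment
  have b2 := E5.birk (E5.ergodic2 T hT hΘ hb hτ) (E5.q2 T (δ := δ) G)
    (g := (A ×ˢ A).indicator fun _ => (1 : ℝ)) (measurable_const.indicator (hA.prod hA)) (C := 1)
    (fun z => by
      by_cases hz : z ∈ A ×ˢ A
      · simp only [Set.indicator_of_mem hz]; simp
      · simp only [Set.indicator_of_notMem hz]; simp)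
    (F := fun k z => (Θ (k * τ) z.1, Θ (k * τ) z.2)) (fun k => by
      have h1 : ∀ᵐ w ∂(T.mu.prod T.mu), (Θ τ)^[k] w.1 = Θ (k * τ) w.1 :=
        Measure.quasiMeasurePreserving_fst.ae (E5.iterate_ae T hΘ τ k)
      have h2 : ∀ᵐ w ∂(T.mu.prod T.mu), (Θ τ)^[k] w.2 = Θ (k * τ) w.2 :=
        Measure.quasiMeasurePreserving_snd.ae (E5.iterate_ae T hΘ τ k)
      filter_upwards [h1, h2] with w hw1 hw2
      rw [E5.iterate_pair, hw1, hw2])
  -- the error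
  have b3 := E5.birk (E5.ergodic T hT hΘ hb hτ) (E5.q3 T hδ G)
    (g := err Θ A δ) he1 (C := δ)
    (fun z => by rw [abs_of_nonneg (he2 z).1]; exact (he2 z).2)
    (F := fun k => Θ (k * τ)) (fun k => E5.iterate_ae T hΘ τ k)
  have b4 : ∀ᵐ p ∂((volume : Measure ℂ).restrict (inner T δ)), ∀ k : ℕ,
      |δ * nu.real {θ | θ ∈ G ∧ Θ (k * τ) (p, θ) ∈ A} -
        (rho δ G).real {z | Θ (k * τ) (mv p z) ∈ A}| ≤
        ∫ θ in G, err Θ A δ (Θ (k * τ) (p, θ)) ∂nu :=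
    ae_all_iff.2 fun k => rowE3 T hΘ hb hA hG hδ (k * τ)
  filter_upwards [b1, b2, b3, b4] with p h1 h2 h3 h4
  have hset : ∀ k : ℕ, MeasurableSet {z : ℝ × ℂ | Θ (k * τ) (mv p z) ∈ A} := fun k =>
    ((hΘm _).comp (hmvp p)) hA
  have i1 : ∀ k : ℕ, ∫ y, (A.indicator fun _ => (1 : ℝ)) (Θ (k * τ) (mv p y)) ∂(rho δ G) =
      (rho δ G).real {z | Θ (k * τ) (mv p z) ∈ A} := by
    intro k
    have : (fun y : ℝ × ℂ => (A.indicator fun _ => (1 : ℝ)) (Θ (k * τ) (mv p y))) =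
        {z : ℝ × ℂ | Θ (k * τ) (mv p z) ∈ A}.indicator fun _ => (1 : ℝ) := by
      ext y
      simp only [Set.indicator]
      rfl
    rw [this, integral_indicator_const _ (hset k), smul_eq_mul, mul_one]
  have i2 : ∀ k : ℕ, ∫ y : (ℝ × ℂ) × (ℝ × ℂ), ((A ×ˢ A).indicator fun _ => (1 : ℝ))
      (Θ (k * τ) (mv p y.1), Θ (k * τ) (mv p y.2)) ∂((rho δ G).prod (rho δ G)) =
      (rho δ G).real {z | Θ (k * τ) (mv p z) ∈ A} ^ 2 := by
    intro k
    have : (fun y : (ℝ × ℂ) × (ℝ × ℂ) => ((A ×ˢ A).indicator fun _ => (1 : ℝ))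
        (Θ (k * τ) (mv p y.1), Θ (k * τ) (mv p y.2))) =
        ({z : ℝ × ℂ | Θ (k * τ) (mv p z) ∈ A} ×ˢ
          {z : ℝ × ℂ | Θ (k * τ) (mv p z) ∈ A}).indicator fun _ => (1 : ℝ) := by
      ext y
      simp only [Set.indicator]
      rfl
    rw [this, integral_indicator_const _ ((hset k).prod (hset k)), smul_eq_mul, mul_one,
      measureReal_prod_prod, sq]
  have m1 : ∫ z, (A.indicator fun _ => (1 : ℝ)) z ∂T.mu = T.mu.real A := by
    rw [integral_indicator_const _ hA, smul_eq_mul, mul_one]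
  have m2 : ∫ z, ((A ×ˢ A).indicator fun _ => (1 : ℝ)) z ∂(T.mu.prod T.mu) =
      T.mu.real A * T.mu.real A := by
    rw [integral_indicator_const _ (hA.prod hA), smul_eq_mul, mul_one, measureReal_prod_prod]
  simp only [i1, m1, E5.rho_univ hδ G] at h1
  have u2 : ((rho δ G).prod (rho δ G)).real univ = (δ * nu.real G) ^ 2 := by
    rw [← univ_prod_univ, measureReal_prod_prod, E5.rho_univ hδ G, sq]
  simp only [i2, m2, u2] at h2
  refine rowE4 (w := fun k => nu.real {θ | θ ∈ G ∧ Θ (k * τ) (p, θ) ∈ A})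
    (W := fun k => (rho δ G).real {z | Θ (k * τ) (mv p z) ∈ A})
    (e := fun k => ∫ θ in G, err Θ A δ (Θ (k * τ) (p, θ)) ∂nu) hδ hε h4 h1 ?_ h3 ?_
  · have e1 : (T.mu.real A * (δ * nu.real G)) ^ 2 =
        T.mu.real A * T.mu.real A * (δ * nu.real G) ^ 2 := by ring
    rw [e1]
    exact h2
  · have hI0 : 0 ≤ ∫ z, err Θ A δ z ∂T.mu := integral_nonneg fun z => (he2 z).1
    have hG1 : (nu.restrict G).real univ ≤ 1 := by
      rw [measureReal_restrict_apply_univ]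
      exact measureReal_le_one
    have hG0 : 0 ≤ (nu.restrict G).real univ := measureReal_nonneg
    nlinarith

/-- ROW E5 -/
theorem rowE5 (hT : T.IsIrrational)
    {Θ : ℝ → ℂ × ℂ → ℂ × ℂ} (hΘ : PFlow T.mu Θ) (hb : T.IsBilliardFlow Θ) {τ : ℝ} (hτ : τ ≠ 0)
    {A : Set (ℂ × ℂ)} (hA : MeasurableSet A) {G : Set ℂ} (hG : MeasurableSet G) :
    ∀ᵐ p ∂(ProbabilityTheory.cond volume T.Q),
      Tendsto (fun n : ℕ => (n : ℝ)⁻¹ * ∑ k ∈ Finset.range n,
        |nu.real {θ | θ ∈ G ∧ Θ (k * τ) (p, θ) ∈ A} - T.mu.real A * nu.real G|) atTop (𝓝 0) := by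
  -- the choice of `δ` for `ε = 1 / (m + 1)`
  have h1 : ∀ m : ℕ, ∃ δ : ℝ, 0 < δ ∧ δ ≤ 1 / ((m : ℝ) + 1) ∧
      ∀ s : ℝ, |s| ≤ δ → T.mu.real (symmDiff A (Θ s ⁻¹' A)) ≤ 1 / ((m : ℝ) + 1) := by
    intro m
    obtain ⟨δ, hδ, h⟩ := rowC2 T hΘ hb hA (ε := 1 / ((m : ℝ) + 1)) (by positivity)
    refine ⟨min δ (1 / ((m : ℝ) + 1)), lt_min hδ (by positivity), min_le_right _ _,
      fun s hs => h s (hs.trans (min_le_left _ _))⟩
  choose δ hδ hδ1 hδ2 using h1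
  have h2 : ∀ᵐ p ∂(volume : Measure ℂ), ∀ m : ℕ, p ∈ inner T (δ m) →
      ∀ᶠ n : ℕ in atTop, (n : ℝ)⁻¹ * ∑ k ∈ Finset.range n,
        |nu.real {θ | θ ∈ G ∧ Θ (k * τ) (p, θ) ∈ A} - T.mu.real A * nu.real G| ≤
          3 * (1 / ((m : ℝ) + 1)) := by
    refine ae_all_iff.2 fun m => ?_
    exact (ae_restrict_iff' (measurableSet_inner T (δ m))).1
      (E5.fixed T hT hΘ hb hτ hA hG (hδ m) (by positivity) (hδ2 m))
  have h3 : ∀ᵐ p ∂(ProbabilityTheory.cond volume T.Q), p ∈ T.Q :=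
    ProbabilityTheory.ae_cond_mem T.isOpen.measurableSet
  have h4 := (ProbabilityTheory.cond_absolutelyContinuous (μ := (volume : Measure ℂ))
    (s := T.Q)).ae_le h2
  filter_upwards [h3, h4] with p hp hm
  -- every point of the table is an inner point
  have hne : (T.Qᶜ).Nonempty := by
    by_contra hcon
    rw [Set.not_nonempty_iff_eq_empty, Set.compl_empty_iff] at hcon
    have hbd := T.isBounded
    rw [hcon] at hbd
    exact NoncompactSpace.noncompact_univ (X := ℂ)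
      (Metric.isCompact_of_isClosed_isBounded isClosed_univ hbd)
  have hpos : 0 < Metric.infDist p T.Qᶜ := by
    rw [← IsClosed.notMem_iff_infDist_pos T.isOpen.isClosed_compl hne]
    exact fun h => h hp
  have hlim : Tendsto (fun m : ℕ => 1 / ((m : ℝ) + 1)) atTop (𝓝 0) :=
    tendsto_one_div_add_atTop_nhds_zero_nat
  have hin : ∀ᶠ m : ℕ in atTop, p ∈ inner T (δ m) := by
    filter_upwards [hlim.eventually (gt_mem_nhds hpos)] with m hm'
    exact lt_of_le_of_lt (hδ1 m) hm'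
  rw [Metric.tendsto_atTop]
  intro ε hε
  have hlim3 : Tendsto (fun m : ℕ => 3 * (1 / ((m : ℝ) + 1))) atTop (𝓝 0) := by
    simpa using hlim.const_mul 3
  obtain ⟨m, hm1, hm2⟩ := (hin.and (hlim3.eventually (gt_mem_nhds hε))).exists
  obtain ⟨n₀, hn₀⟩ := eventually_atTop.1 (hm m hm1)
  refine ⟨n₀, fun n hn => ?_⟩
  rw [Real.dist_eq, sub_zero, abs_of_nonneg (by positivity)]
  exact (hn₀ n hn).trans_lt hm2

end

end Vale.Agent.P099.H366
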